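import Vale.Agent.P329.Group

/-! P329: star height one for the languages of abelian by elementary abelian groups. -/

namespace Vale.Agent.Results.P329.AbelianByElementary

open Vale.Agent.P329

theorem result :
    ∀ (p : ℕ), p.Prime → ∀ (α : Type) [Fintype α] (G : Type) [Group G] [Finite G]
      (N : Subgroup G) [N.Normal],
      (∀ x ∈ N, ∀ y ∈ N, x * y = y * x) →
      (∀ g : G, g ^ p ∈ N) →
      (∀ g h : G, g * h * g⁻¹ * h⁻¹ ∈ N) →
      ∀ (φ : α → G) (S : Set G),
        ∃ E : Expr α, E.height ≤ 1 ∧ E.lang = {w : List α | (w.map φ).prod ∈ S} := by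
  intro p hp α _ G _ _ N _ hab hpow hcomm φ S
  have : Fact p.Prime := ⟨hp⟩
  have : Fintype G := Fintype.ofFinite G
  have h : Has 1 (mk fun w : List α => (w.map φ).prod ∈ S) :=
    (Has.iUnion' (P := fun (g : G) w => g ∈ S ∧ (w.map φ).prod = g) fun g =>
      (Has.const' (g ∈ S)).inter' (det_prod N hab hpow hcomm φ g)).of_iff fun w => by simp
  exact h

end Vale.Agent.Results.P329.AbelianByElementary
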