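import Vale.Agent.P329.Class3.Collect

/-! P329: star height one for the languages of nilpotent groups of class three. -/

namespace Vale.Agent.Results.P329.NilpotentClassThree

open Vale.Agent.P329
open scoped commutatorElement

theorem result :
    ∀ (α : Type) [Fintype α] (G : Type) [Group G] [Finite G],
      (⊤ : Subgroup G).lowerCentralSeries 3 = ⊥ →
      ∀ (φ : α → G) (S : Set G),
        ∃ E : Expr α, E.height ≤ 1 ∧ E.lang = {w : List α | (w.map φ).prod ∈ S} := by
  classical
  intro α _ G _ _ hG φ S
  have hcl : ClassLE3 G := by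
    intro a b c d
    have h1 : ∀ (n : ℕ) (x y : G), x ∈ (⊤ : Subgroup G).lowerCentralSeries n →
        ⁅x, y⁆ ∈ (⊤ : Subgroup G).lowerCentralSeries (n + 1) := fun n x y hx =>
      Subgroup.commutator_mem_commutator hx (Subgroup.mem_top y)
    have := h1 2 _ d (h1 1 _ c (h1 0 a b (Subgroup.mem_top a)))
    rw [hG, Subgroup.mem_bot] at this
    exact this
  have : Fintype G := Fintype.ofFinite G
  have h : Has 1 (mk fun w : List α => (w.map φ).prod ∈ S) :=
    (Has.iUnion' (P := fun (g : G) w => g ∈ S ∧ (w.map φ).prod = g) fun g =>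
      (Has.const' (g ∈ S)).inter' (det_prod_class3 φ hcl g)).of_iff fun w => by simp
  exact h

end Vale.Agent.Results.P329.NilpotentClassThree
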