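import Vale.Agent.P329.Padded.Lang

/-!
P329: every regular language has generalized star height at most one on the words in which long runs
of a fixed letter recur with bounded gaps.
-/

namespace Vale.Agent.Results.P329.RecurringRuns

open Vale.Agent.P329

theorem result :
    ∀ (α : Type) [Fintype α] (z : α) (L : Language α), L.IsRegular →
      ∃ M : ℕ, ∀ W : ℕ, ∃ E : Expr α, E.height ≤ 1 ∧
        E.lang = {w : List α | w ∈ L ∧
          ∀ u v t : List α, w = u ++ v ++ t → v.length = W → List.replicate M z <:+: v} := by
  intro α _ z L hL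
  classical
  obtain ⟨Q, hQ, D, rfl⟩ := hL
  obtain ⟨M, hM⟩ := Padded.height_one_rich (α := α) D.step z D.start D.accept
  refine ⟨M, fun W => ?_⟩
  obtain ⟨E, hE, hl⟩ := (hM W)
  exact ⟨E, hE, hl.trans (Language.ext fun w => Iff.rfl)⟩

end Vale.Agent.Results.P329.RecurringRuns
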